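import Vale.Agent.P181.RG.Defs

set_option autoImplicit false

/-! P181, LINE RG, [PAR]: the parameters (pure arithmetic). -/

namespace Vale.Agent.P181.RG.H34

theorem big (K w X a : ℕ) (h : w * w ≤ 4 * (X * a)) (hK : K * K * (4 * X) ≤ a) : K * w ≤ a := by
  rw [← Nat.mul_self_le_mul_self_iff]
  calc K * w * (K * w) = K * K * (w * w) := by ring
    _ ≤ K * K * (4 * (X * a)) := Nat.mul_le_mul_left _ h
    _ = K * K * (4 * X) * a := by ring
    _ ≤ a * a := Nat.mul_le_mul_right _ hK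

theorem hasW (b : ℕ) (hb : 1 ≤ b) : ∃ w, b < w * w ∧ w * w ≤ 4 * b := by
  have h1 : b < (Nat.sqrt b + 1) * (Nat.sqrt b + 1) := Nat.lt_succ_sqrt b
  have h2 : Nat.sqrt b * Nat.sqrt b ≤ b := Nat.sqrt_le b
  have h3 : 1 ≤ Nat.sqrt b := Nat.sqrt_pos.2 hb
  refine ⟨Nat.sqrt b + 1, h1, ?_⟩
  calc (Nat.sqrt b + 1) * (Nat.sqrt b + 1) ≤ (2 * Nat.sqrt b) * (2 * Nat.sqrt b) :=
        Nat.mul_le_mul (by omega) (by omega)
    _ = 4 * (Nat.sqrt b * Nat.sqrt b) := by ring
    _ ≤ 4 * b := Nat.mul_le_mul_left _ h2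

/-- **[PAR]** -/
theorem par : ParRG := by
  refine ⟨1, fun a b X m ha1 hX2 ha hb hbX hm3 hmX => ?_⟩
  have hXp : 0 < X := by omega
  have hX : 20 ≤ X := Nat.le_of_mul_le_mul_right (le_trans hb hbX) ha1
  have pw : ∀ i j : ℕ, i ≤ j → X ^ i ≤ X ^ j := fun i j h => Nat.pow_le_pow_right hXp h
  have q14 : X ^ 14 * 160000 ≤ a := by
    calc X ^ 14 * 160000 ≤ X ^ 14 * X ^ 4 := by
          apply Nat.mul_le_mul_left
          calc 160000 = 20 ^ 4 := by norm_num
            _ ≤ X ^ 4 := Nat.pow_le_pow_left hX 4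
      _ = X ^ 18 := by rw [← pow_add]
      _ ≤ X ^ 40 := pw _ _ (by norm_num)
      _ ≤ a := ha
  have q4 : X ^ 4 ≤ a := le_trans (pw 4 40 (by norm_num)) ha
  have q11 : X ^ 11 ≤ X ^ 14 := pw _ _ (by norm_num)
  have q9 : X ^ 9 ≤ X ^ 14 := pw _ _ (by norm_num)
  clear ha
  obtain ⟨w, hw1, hw2⟩ := hasW b (by omega)
  have hw3 : w * w ≤ 4 * (X * a) := le_trans hw2 (Nat.mul_le_mul_left _ hbX)
  have hwX : X ^ 2 < w := by
    rw [← Nat.mul_self_lt_mul_self_iff]
    have : X ^ 2 * X ^ 2 = X ^ 4 := by rw [← pow_add]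
    omega
  have hX1 : X ≤ X ^ 2 := by simpa using pw 1 2 (by norm_num)
  have hmw : m < w := by omega
  -- `K w ≤ a` for two values of `K`
  have k1 : (144 * X ^ 5) * w ≤ a := by
    apply big _ _ X _ hw3
    have : 144 * X ^ 5 * (144 * X ^ 5) * (4 * X) = X ^ 11 * 82944 := by ring
    omega
  have k2 : (40 * X ^ 4) * w ≤ a := by
    apply big _ _ X _ hw3
    have : 40 * X ^ 4 * (40 * X ^ 4) * (4 * X) = X ^ 9 * 6400 := by ring
    omega
  obtain ⟨f, hf⟩ : ∃ f, f = 16 * m * X * w := ⟨_, rfl⟩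
  have hmf : 9 * (m * f) ≤ a := by
    calc 9 * (m * f) = (144 * (m * m * X)) * w := by rw [hf]; ring
      _ ≤ (144 * (X ^ 2 * X ^ 2 * X)) * w := by
          apply Nat.mul_le_mul_right; apply Nat.mul_le_mul_left; apply Nat.mul_le_mul_right
          exact Nat.mul_le_mul hmX hmX
      _ = (144 * X ^ 5) * w := by ring
      _ ≤ a := k1
  have hfw : 48 * (X * w) ≤ f := by
    calc 48 * (X * w) = 16 * 3 * X * w := by ring
      _ ≤ 16 * m * X * w := by
          apply Nat.mul_le_mul_right; apply Nat.mul_le_mul_right; apply Nat.mul_le_mul_left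
          exact hm3
      _ = f := hf.symm
  have hXw : 20 * w ≤ X * w := Nat.mul_le_mul_right _ hX
  have hf1 : 2 ≤ f := by omega
  have hmf3 : 3 * 2 ≤ m * f := Nat.mul_le_mul hm3 hf1
  have hSle : ∑ r : Fin m, (f - (r : ℕ)) ≤ m * f := by
    calc ∑ r : Fin m, (f - (r : ℕ)) ≤ ∑ _r : Fin m, f := Finset.sum_le_sum fun r _ => Nat.sub_le _ _
      _ = m * f := by simp
  obtain ⟨S, hS⟩ : ∃ S, S = ∑ r : Fin m, (f - (r : ℕ)) := ⟨_, rfl⟩
  rw [← hS] at hSle
  obtain ⟨u, hu⟩ : ∃ u, u + S = b := ⟨b - S, by omega⟩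
  have hu19 : 19 * a ≤ u := by omega
  have hub : u ≤ b := by omega
  obtain ⟨F, hF⟩ : ∃ F, F = b * (4 * w + m + 1) := ⟨_, rfl⟩
  have hT : u * (2 * w + w + (w + m + 1)) ≤ F := by
    have e1 : 2 * w + w + (w + m + 1) = 4 * w + m + 1 := by ring
    rw [hF, e1]; exact Nat.mul_le_mul_right _ hub
  have hR : u * (2 * w) ≤ f * a + F := by
    have : u * (2 * w) ≤ u * (2 * w + w + (w + m + 1)) := Nat.mul_le_mul_left _ (by omega)
    omega
  obtain ⟨R, hR'⟩ := Nat.exists_eq_add_of_le hR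
  refine ⟨u, w, R, f, F, w + m + 1, w, f * a + F, by omega, by omega, ?_, by rw [← hS]; exact hu,
    hR', rfl, hT, ?_, ?_, by omega, ?_, by omega, ?_, hu19, hub⟩
  · calc u ≤ w * w := by omega
      _ ≤ (w + 1) * (w + 1) := Nat.mul_le_mul (by omega) (by omega)
      _ = (w + 1) ^ 2 := by ring
  · -- m f² + m F + a m² ≤ f a
    have h1 : 9 * (m * f ^ 2) ≤ f * a := by
      calc 9 * (m * f ^ 2) = f * (9 * (m * f)) := by ring
        _ ≤ f * a := Nat.mul_le_mul_left _ hmf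
    have h2 : m * F ≤ m * (X * a) * (6 * w) := by
      calc m * F = m * b * (4 * w + m + 1) := by rw [hF]; ring
        _ ≤ m * (X * a) * (6 * w) := Nat.mul_le_mul (Nat.mul_le_mul_left _ hbX) (by omega)
    have h3 : a * m ^ 2 ≤ m * (X * a) * w := by
      calc a * m ^ 2 = m * (1 * a) * m := by ring
        _ ≤ m * (X * a) * w := Nat.mul_le_mul (Nat.mul_le_mul_left _ (Nat.mul_le_mul_right _ hXp))
            hmw.le
    have h4 : f * a = 16 * (m * (X * a) * w) := by rw [hf]; ring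
    have h5 : m * (X * a) * (6 * w) = 6 * (m * (X * a) * w) := by ring
    omega
  · have h1 : 4 * (u * (w + m + 1)) ≤ (12 * (X * w)) * a := by
      calc 4 * (u * (w + m + 1)) ≤ 4 * ((X * a) * (3 * w)) := by
            apply Nat.mul_le_mul_left; exact Nat.mul_le_mul (by omega) (by omega)
        _ = (12 * (X * w)) * a := by ring
    exact le_trans h1 (Nat.mul_le_mul_right _ (by omega))
  · have h1 : u / w < w := by
      rw [Nat.div_lt_iff_lt_mul (by omega)]; omega
    omega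
  · have h1 : F ≤ (X * a) * (6 * w) := by
      rw [hF]; exact Nat.mul_le_mul hbX (by omega)
    have h2 : f * a ≤ (16 * X ^ 3 * w) * a := by
      apply Nat.mul_le_mul_right
      calc f = 16 * m * X * w := hf
        _ ≤ 16 * X ^ 2 * X * w := by
          apply Nat.mul_le_mul_right; apply Nat.mul_le_mul_right; apply Nat.mul_le_mul_left
          exact hmX
        _ = 16 * X ^ 3 * w := by ring
    have h3 : (X * a) * (6 * w) ≤ (X ^ 3 * w) * a := by
      calc (X * a) * (6 * w) = (6 * X * w) * a := by ring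
        _ ≤ (X ^ 3 * w) * a := by
          apply Nat.mul_le_mul_right; apply Nat.mul_le_mul_right
          calc 6 * X ≤ X ^ 2 * X := Nat.mul_le_mul_right _ (by omega)
            _ = X ^ 3 := by ring
    calc 2 * X * (f * a + F) ≤ 2 * X * ((16 * X ^ 3 * w) * a + (X ^ 3 * w) * a) := by
          apply Nat.mul_le_mul_left; omega
      _ = (34 * X ^ 4 * w) * a := by ring
      _ ≤ (40 * X ^ 4 * w) * a := by
          apply Nat.mul_le_mul_right; apply Nat.mul_le_mul_right; apply Nat.mul_le_mul_right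
          norm_num
      _ ≤ a * a := Nat.mul_le_mul_right _ k2
      _ = a ^ 2 := by ring

end Vale.Agent.P181.RG.H34
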